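import Vale.Agent.P354YK.Ins
import Vale.Agent.P354FA.Hat
import Vale.Agent.P354FX.Defs2

/-!
The family of the far zone at one member of a family of states.
-/

noncomputable section

namespace Vale.Agent.P354FY

open Vale.Agent.P354XG Vale.Agent.P354XD Vale.Agent.P354XR Vale.Agent.P354XI Vale.Agent.P354Z
open Vale.Agent.P354FA Vale.Agent.P354YK
open Vale.Agent.P354XZ (NF)
open Vale.Agent.P354FX (dv)

section
variable {A B : Type} [CommRing A] [Algebra ℂ A] [CommRing B] [Algebra ℂ B] {G : GHP A}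
  {G' : GHP B} {φ : A →ₐ[ℂ] B} (m : GHP.Hom G G' φ)
include m

theorem hom_Dl (x : Lt) (f : A) : φ (Dl G x f) = Dl G' x (φ f) := by
  obtain ⟨a, b⟩ := x
  cases a <;> cases b
  exacts [m.th f, m.et f, m.ep f, m.tp f]

theorem hom_Gam (x : Lt) (g : Gn) : φ (Gam G x g) = Gam G' x g := by
  obtain ⟨a, b⟩ := x
  cases a <;> cases b <;> cases g <;>
    simp only [Gam, m.c, m.ka, m.si, m.rh, m.ta, m.ka', m.si', m.rh', m.ta', map_zero]

theorem hom_Ps (k : ℕ) : φ (Ps G k) = Ps G' k := by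
  match k with
  | 0 => exact m.P0
  | 1 => exact m.P1
  | 2 => exact m.P2
  | 3 => exact m.P3
  | 4 => exact m.P4
  | k + 5 => exact map_zero φ

theorem hom_val (v : Var) : φ (val G v) = val G' v := by
  rw [← ev_X, ← ev_X]
  refine lin_ind (fun P => φ (ev G P) = ev G' P) (by simp)
    (fun P Q hP hQ => by simp only [map_add, hP, hQ])
    (fun z P hP => by simp only [map_zsmul, hP]) (fun c k => ?_) (fun x Q hQ hg => ?_) v
  · rw [ev_X, ev_X]
    cases c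
    · rw [val_nil, val_nil, hom_Ps m]
    · rw [val_nil', val_nil', m.c, hom_Ps m]
  · simp only [ev_nab, cn, map_add, map_mul, hom_Dl m, hom_Gam m, hQ, hg]

end

variable {Φ : P354YK.Fm}

theorem out_hom (j : Φ.J) :
    GHP.Hom (out Φ.kc) (out ((Φ.E j).K2 (Φ.c j))) (Pi.evalAlgHom ℂ _ j) where
  c _ := rfl
  th f := Fm.V_ap _ _ _ _ _ _ f j
  tp f := Fm.V_ap _ _ _ _ _ _ f j
  et f := Fm.V_ap _ _ _ _ _ _ f j
  ep f := Fm.V_ap _ _ _ _ _ _ f j
  H f := Fm.H_ap f j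
  Hb f := Fm.B_ap f j
  ka := rfl
  si := rfl
  rh := rfl
  ta := rfl
  ka' := rfl
  si' := rfl
  rh' := rfl
  ta' := rfl
  P0 := rfl
  P1 := rfl
  P2 := rfl
  P3 := rfl
  P4 := rfl

variable (h : Φ.Ok)

theorem Vw_ap (w : List Lt) (k : Fin 5) (j : Φ.J) : Vw Φ.nf Φ.nf0 h.ch w k j =
    NF.nz h.ch (bw w k) j * (val (Φ.E j).G2 (false, w, k) -
      val (out ((Φ.E j).K2 (Φ.c j))) (false, w, k)) := by
  rw [mul_sub, ← hom_val (gpi_hom (fun j => (Φ.E j).G2) j), ← hom_val (out_hom j)]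
  rfl

theorem md_nz (b : ℤ) (x : h.ch.Pt) : h.ch.md x (NF.nz h.ch b) = nq (h.pt x) ^ (-b) := by
  have p : 0 < nq (h.pt x) := by linarith [(h.pt_mem x).2.1.1]
  have n : h.ch.md x h.ch.N = nq (h.pt x) :=
    (congrArg norm (fv_N (h.pt_mem x).1)).trans (Complex.norm_of_nonneg p.le)
  have e : ∀ b : ℤ, h.ch.md x (NF.nz h.ch b) = h.ch.md x (NF.nz h.ch (b + 1)) * nq (h.pt x) :=
    fun b => by rw [← nz_N b, P354YF.md_mul, n]
  induction b using Int.induction_on with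
  | zero => rw [nz_zero, P354YF.md_one]; simp
  | succ n ih =>
    refine mul_right_cancel₀ p.ne' ?_
    rw [← e, ih, ← zpow_add_one₀ p.ne']
    congr 1; ring
  | pred n ih =>
    rw [e, sub_add_cancel, ih, ← zpow_add_one₀ p.ne']
    congr 1; ring

theorem bw_le (w : List Lt) (k : Fin 5) : (bw w k).natAbs ≤ w.length + 2 := by
  induction w with
  | nil => simp only [bw, bl, List.map_nil, List.sum_nil]; omega
  | cons x w ih =>
    have : (bx x).natAbs ≤ 1 := by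
      obtain ⟨a, b⟩ := x
      cases a <;> cases b <;> simp [bx]
    rw [bw_cons, List.length_cons]; omega

theorem zp_le {t : ℝ} (h1 : 1 / 2 ≤ t) (h2 : t ≤ 2) {b : ℤ} {n : ℕ} (e : b.natAbs ≤ n) :
    t ^ b ≤ 2 ^ n := by
  have p : 0 < t := by linarith
  refine le_trans ?_ (pow_le_pow_right₀ one_le_two e)
  obtain ⟨i, rfl | rfl⟩ := b.eq_nat_or_neg
  · rw [zpow_natCast, Int.natAbs_natCast]; gcongr
  · rw [zpow_neg, zpow_natCast, Int.natAbs_neg, Int.natAbs_natCast, ← inv_pow]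
    have : t⁻¹ ≤ 2 := by rw [inv_le_comm₀ p two_pos]; linarith
    gcongr

theorem md_Vw (w : List Lt) (k : Fin 5) (x : h.ch.Pt) :
    h.ch.md x (Vw Φ.nf Φ.nf0 h.ch w k) =
      nq (h.pt x) ^ (-bw w k) * dv (Φ.c x.1) (Φ.E x.1) (h.pt x) w k := by
  rw [← md_nz h]
  refine (congrArg (fun f => ‖fv f (h.pt x)‖) (Vw_ap h w k x.1)).trans ?_
  rw [fv_mul, norm_mul]
  rfl

/-- The two families are comparable on the shell. -/
theorem dv_le {n : ℕ} {w : List Lt} (hw : w.length ≤ n) (k : Fin 5) (x : h.ch.Pt) :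
    dv (Φ.c x.1) (Φ.E x.1) (h.pt x) w k ≤ 2 ^ (n + 2) * h.ch.md x (Vw Φ.nf Φ.nf0 h.ch w k) ∧
    h.ch.md x (Vw Φ.nf Φ.nf0 h.ch w k) ≤ 2 ^ (n + 2) * dv (Φ.c x.1) (Φ.E x.1) (h.pt x) w k := by
  obtain ⟨a1, a2⟩ := (h.pt_mem x).2.1
  have p : 0 < nq (h.pt x) := by linarith
  have b := (bw_le w k).trans (Nat.add_le_add_right hw 2)
  have d : 0 ≤ dv (Φ.c x.1) (Φ.E x.1) (h.pt x) w k := norm_nonneg _
  rw [md_Vw]
  refine ⟨?_, mul_le_mul_of_nonneg_right (zp_le a1 (by linarith) (by rwa [Int.natAbs_neg])) d⟩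
  rw [← mul_assoc, zpow_neg, ← div_eq_mul_inv]
  exact le_mul_of_one_le_left d ((one_le_div (zpow_pos p _)).2 (zp_le a1 (by linarith) b))

end Vale.Agent.P354FY
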