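import Vale.Agent.P354FY.Vw
import Vale.Agent.P354CO.Gi
import Vale.Agent.P354XR.Dict
import Vale.Agent.P354FS.Ptw

/-!
Smallness at a point: the frames, and the words of half order.
-/

noncomputable section

namespace Vale.Agent.P354FY

open Vale.Agent.P354XG Vale.Agent.P354XD Vale.Agent.P354XR Vale.Agent.P354XI Vale.Agent.P354Z
open Vale.Agent.P354CO Vale.Agent.P354CV Vale.Agent.P354YF
open Vale.Agent.P354FX (dv Pe)
open Vale.Agent.P354YH (wt wt_pos wt_zero)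

variable {c : Cs}

/-- The frames are close to those of Kerr. -/
theorem pe_of (o : c.Ok) {ρ δ : ℝ} (hρ : c.R1 + 3 ≤ ρ) (hδ : 0 < δ) : ∃ e > 0, ∀ E L ε,
    Bo c E L ε → c.L0 ≤ L → ε ≤ e → ∀ x ∈ E.O1, An x → Est.Fa c x → x.2.1 ≤ ρ → Pe c E x ρ δ := by
  obtain ⟨w, hw⟩ := exists_nat_ge (c.B + c.t1 + c.c0 + 1 + |c.bt c.R1 - c.t1|)
  obtain ⟨C, hC, h⟩ := bootp (s := 7 / 5) (by norm_num) (by norm_num) w
  obtain ⟨C', hC', h'⟩ := par_le (s := 7 / 5) (by norm_num) w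
  have p : 0 ≤ c.C ρ * C := mul_nonneg (zero_le_one.trans (o.C ρ)) hC
  have p1 := zero_le_one.trans (o.C c.R1)
  have p' : 0 ≤ c.C c.R1 * C' := mul_nonneg p1 hC'
  refine ⟨min (1 / 2) (δ / (2 * (c.C ρ * C) + c.C c.R1 * C' + 1)), by positivity,
    fun E L ε b hL he x hx a f r => ?_⟩
  have e1 := he.trans (min_le_left _ _)
  have e2 := (le_div_iff₀ (by positivity)).1 (he.trans (min_le_right _ _))
  have e0 := b.is.near.e0
  have e3 := b.e0
  have e4 := b.pos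
  have t1 := o.t1
  have c0 := o.c0
  have B := o.B
  have ab := abs_nonneg (c.bt c.R1 - c.t1)
  have k := h (by linarith) (by linarith) b.is.near (b.dec0 hL) e4.le (by linarith) hρ
    ⌊x.1 - c.t1⌋₊ x hx a r (by
      rcases le_total 0 (x.1 - c.t1) with u | u
      · linarith [fl_near u]
      · rw [Nat.floor_of_nonpos u, Nat.cast_zero, sub_zero, abs_of_nonpos u]
        linarith [(b.is.shape.rad1 x hx).2.2])
  have k' := h' (by linarith) b.is.near (b.dec0 hL) (by linarith) e3 p1 (by linarith)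
  have l : c.C ρ * C * (E.e0 + ε) * wt (-(7 / 5)) ⌊x.1 - c.t1⌋₊ ≤ δ :=
    (mul_le_of_le_one_right (by positivity) ((wt_le (by norm_num) (Nat.zero_le _)).trans_eq
      (wt_zero _))).trans (by nlinarith [mul_le_mul_of_nonneg_left e3 p, mul_nonneg p' e4.le])
  have l0 : 0 ≤ c.C ρ * C * (E.e0 + ε) * wt (-(7 / 5)) ⌊x.1 - c.t1⌋₊ := by
    have := wt_pos (-(7 / 5)) ⌊x.1 - c.t1⌋₊
    positivity
  exact ⟨o, b.is.shape, b.is.eqs, by
      nlinarith [abs_nonneg (E.a - c.a), mul_nonneg p e4.le], hx, a, f, r,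
    fun i => (abs_le_of_sq_le_sq' ((P354BO.q2_val _ x _ _).trans (k _).1) l0).2.trans l,
    fun i => (abs_le_of_sq_le_sq' ((P354BO.q2_val _ x _ _).trans ((k _).2 f)) l0).2.trans l⟩

/-- The family with one member. -/
def one (c : Cs) (E : Est) : P354YK.Fm :=
  ⟨Unit, c.M, fun _ => c, fun _ => E, fun _ => c.R1 + 3, fun _ => c.R1 + 3⟩

theorem one_ok (o : c.Ok) {E : Est} (s : E.Shape c) (q : E.Eqs c) : (one c E).Ok :=
  ⟨fun _ => rfl, fun _ => s.co2, fun _ => q, fun _ =>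
    ⟨show 1 ≤ c.R1 + 3 by linarith [o.R1, (ok_pos o).1], le_rfl⟩⟩

/-- The table bounds the words. -/
theorem tb_md {A : Type} [CommRing A] [Algebra ℂ A] {C : P354XZ.Ch A} (h : C.Is) {x : C.Pt}
    (u0 : 0 ≤ C.uu x) {k : Fin 5} {f : A} {e : ℝ} (e0 : 0 ≤ e)
    (t : C.rr x * C.at' (C.Dt 0 k) x * C.jet 0 f x ^ 2 ≤ e ^ 2) : C.md x f ≤ 3 * e := by
  have a := mul_le_mul_of_nonneg_left (P354FS.Dw_ge h k x u0) (at_pos h 0 0 (-3 / 10) x).le
  have b : 1 ≤ C.at' (C.mon 0 0 (-3 / 10)) x * C.at' (C.mon 0 0 (14 / 5)) x := by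
    rw [at_mon_mul h]
    simp only [P354XZ.Ch.at', P354XZ.Ch.mon, add_zero, Real.rpow_zero, one_mul]
    exact Real.one_le_rpow (one_le_ut h _ _) (by norm_num)
  have d : 1 ≤ 8 * C.at' (C.Dt 0 k) x := by
    rw [P354XZ.Ch.Dt, at_mul]; linarith
  have r := one_le_rr h x
  rw [jet_zero] at t
  refine (abs_le_of_sq_le_sq' ?_ (by positivity)).2
  have g : 1 ≤ 8 * (C.rr x * C.at' (C.Dt 0 k) x) := by nlinarith
  nlinarith [mul_le_mul_of_nonneg_right g (sq_nonneg (C.md x f)), sq_nonneg e]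

/-- The words of length at most L are small. -/
theorem half (o : c.Ok) (L : ℕ) : ∃ C ≥ 0, ∀ E m s e, E.Shape c → E.Eqs c → 0 ≤ e →
    TabE c E m L s e → ∀ x ∈ E.O2, An x → Est.Fa c x → 0 ≤ x.1 → rv E.tau x < s →
      ∀ w k, List.length w ≤ L → k ≤ 4 → dv c E x w k ≤ C * e := by
  have p : 0 < c.R1 + 3 := by linarith [o.R1, (ok_pos o).1]
  refine ⟨2 ^ (L + 2) * (3 * (c.R1 + 3) ^ 3), by positivity,
    fun E m s e sh q e0 tb x hx a f t0 l w k hw hk => ?_⟩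
  have h := one_ok o sh q
  let y := h.pk () x ⟨hx, a, f⟩
  have u : 0 ≤ h.ch.uu y := (add_nonneg t0 (div_nonneg (by positivity)
    (p.le.trans f.1))).trans_eq (h.uu_eq y).symm
  have := tb_md h.is u (show 0 ≤ e * (c.R1 + 3) ^ 3 by positivity)
    ((tb _ h y rfl rfl le_rfl l).V 0 w ⟨k, by omega⟩ (Nat.zero_le _) (by rwa [zero_add]))
  exact ((dv_le h hw ⟨k, by omega⟩ y).1.trans
    (mul_le_mul_of_nonneg_left this (by positivity))).trans_eq (by ring)

end Vale.Agent.P354FY
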