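import Vale.Agent.P354YL.All
import Vale.Agent.P354FS.Ptw
import Vale.Agent.P354YK.Tm
import Vale.Agent.P354EF.Hom

/-!
The far estimate for the words without letters; weights in the time; the integral over the shell.
-/

open scoped ENNReal ContDiff
open MeasureTheory Set Finset

noncomputable section

namespace Vale.Agent.P354FY

open Vale.Agent.P354XG Vale.Agent.P354XI Vale.Agent.P354XZ Vale.Agent.P354YF Vale.Agent.P354YL
open Vale.Agent.P354YS (ps_Dw val_dn)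

section
variable {A : Type} [CommRing A] [Algebra ℂ A] {C : Ch A} {F F0 : NF A} {t : Fin 4 → A}
  {K : Cut C} {Vw : List Lt → Fin 5 → A} {T : Tm C}

/-- The density of the words, and the weight with a cut off in the time. -/
def dq (K : Cut C) (Vw : List Lt → Fin 5 → A) (s : ℕ) : A :=
  C.dWl (C.Dw K.p 0) (C.sl (0 + 1)) Vw 0 s
def Wc (C : Ch A) (κ a : ℝ) (χ : ℝ → ℝ) : Fam C.J :=
  W0 C κ a * fun _ u r => χ (u - κ / r - 0)

theorem cw_Wc (h : C.Is) {κ a s : ℝ} {χ : ℝ → ℝ} (κ0 : 0 ≤ κ) (a0 : a ≤ 0) (cf : Cf s χ)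
    (j : C.J) : Cw C κ j (Wc C κ a χ) :=
  (cw_W0 h κ0 a0 j).mul h (cw_of h (W := fun _ => χ) (μ := fun _ _ => 0) (fun _ => cf.1)
    (fun _ => contDiffOn_const) j (fun t => ⟨(cf.2.1 t).1.1, (cf.2.1 t).2⟩) fun r _ => by simpa)

theorem sl_one (f : A) : C.sl (0 + 1) f = f * C.c f := by simp [Ch.sl, Ch.sw]

theorem val_dq (h : C.Is) (k : K.Is) (s : ℕ) (x : C.Pt) : C.val x (dq K Vw s) =
    ∑ i ∈ range (s + 1), ∑ j : Fin i → Lt, ∑ l,
      C.at' (C.Dw K.p 0 l) x * C.md x (Vw (List.ofFn j) l) ^ 2 := by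
  simp only [dq, Ch.dWl, Ch.dW, vl_sum, val_dn h (ps_Dw h (P354YL.ps_p k) 0), sl_one, vl_nsq h, Ch.Vs,
    Function.iterate_zero, id]

theorem S_dq (h : C.Is) (k : K.Is) (hS : ∀ φ, SmF φ → C.S (C.fn φ) = 0)
    (hV : ∀ w i, C.S (Vw w i) = 0) (s : ℕ) : C.S (dq K Vw s) = 0 := by
  simp only [dq, Ch.dWl, Ch.dW, Ch.dn, map_sum, sl_one, D_mul, Ch.Vs, Function.iterate_zero, id,
    ← h.c_S, hV, hS _ (ps_Dw h (P354YL.ps_p k) 0 _).sm, map_zero, mul_zero, add_zero, sum_const_zero]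

theorem blk (sd : Sd C F F0 t K Vw) (i : T.Is K) {κ : ℝ} (κ0 : 0 < κ)
    (hκ : ∀ x, 2 * (C.rr x * C.md x (F0.mc 0)) ^ 2 ≤ κ) {o : Od} (ok : o.Ok) {s : ℕ}
    (r : Rng 0 0 s o.m o.m' o.N 0) : ∃ c > 0, ∃ B ≥ 0, ∀ j σ e φ ψ, σ ∈ T.Lv j → 0 ≤ e →
      de C K j e ≤ c → (∀ x ∈ T.Y j σ, Tb C F F0 Vw o e x) → Cf σ φ → Cw C κ j ψ →
      K.Cau F j (T.fc φ * C.fn ψ) ∧ K.E j (T.fc φ * C.fn ψ) (dq K Vw s) ≤
        B * K.L j (T.fc φ * C.fn ψ) (Ql C F F0 K Vw 0 0 s) := by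
  have h := sd.ga.ch
  obtain ⟨c, c0, a⟩ := caus (Vw := Vw) sd.ga sd.cut i κ κ0 hκ
  obtain ⟨c', c0', B, B0, b⟩ := far' C F F0 t K Vw T sd i κ κ0 hκ o 0 s 0 ok (Nat.zero_le _) r
  refine ⟨min c c', lt_min c0 c0', B, B0, fun j σ e φ ψ hs e0 hd tb cf cw => ?_⟩
  have p := (a o j σ e φ ψ hs e0 (hd.trans (min_le_left ..)) tb cf cw).1
  refine ⟨p, le_trans (J_mono h (wtE h sd.cut p) fun x _ => ?_)
    (b j σ e φ ψ hs e0 (hd.trans (min_le_right ..)) tb cf cw)⟩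
  rw [P354YL.Qb, vl_add]
  exact le_add_of_nonneg_right (dG_pos h (P354YL.ps_p sd.cut) (vl_sl0 h _) _)

/-- The weights from below. -/
theorem wt_lo (h : C.Is) (k : K.Is) {κ a τ : ℝ} (κ0 : 0 ≤ κ) (a0 : a ≤ 0) (a1 : -1 / 2 ≤ a)
    {x : C.Pt} (hr : κ ≤ C.rr x) (τ0 : 0 ≤ τ) (hu : τ ≤ C.uu x) (l : Fin 5) :
    (1 + τ) ^ (14 / 5 + a) ≤ 64 * (C.at' (W0 C κ a) x * C.at' (C.Dw K.p 0 l) x) := by
  have e1 := W0_ge h κ0 a0 a1 x hr
  have e2 := (P354FS.Dw_ge h l x (τ0.trans hu)).trans (mul_le_mul_of_nonneg_left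
    (Dw_le h le_rfl x (k.ple _ _ (h.dom x)).1 l) (by norm_num))
  have e3 := mul_le_mul e1 e2 (at_pos h ..).le ((at_pos h ..).le.trans e1)
  have u1 := one_le_ut h x.1 (C.uu x)
  have u2 := (le_abs_self _).trans (ut_ge x.1 (C.uu x))
  have e4 := Real.rpow_le_rpow (show 0 ≤ 1 + τ by linarith)
    (show 1 + τ ≤ 2 * C.ut x.1 (C.uu x) by linarith) (show 0 ≤ 14 / 5 + a by linarith)
  have e5 : (2 : ℝ) ^ (14 / 5 + a) ≤ 8 :=
    (Real.rpow_le_rpow_of_exponent_le one_le_two (show _ ≤ (3 : ℝ) by linarith)).trans_eq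
      (by norm_num)
  rw [at_mon_mul h] at e3
  simp only [Ch.at', Ch.mon, add_zero, Real.rpow_zero, one_mul, add_comm a] at e3
  rw [Real.mul_rpow zero_le_two (by linarith)] at e4
  have := mul_le_mul_of_nonneg_right e5
    (Real.rpow_nonneg (zero_le_one.trans u1) (14 / 5 + a))
  simp only [Ch.at']
  linarith

/-- The weights from above. -/
theorem wt_up (h : C.Is) {κ a ρ : ℝ} (a0 : a ≤ 0) (a1 : -1 ≤ a) (j : C.J) {u r : ℝ}
    (hρ : -ρ ≤ u - κ / r) (ρ0 : 0 ≤ ρ) : W0 C κ a j u r ≤ 2 ∧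
      W0 C κ a j u r * (1 + |u - κ / r|) ^ (14 / 5 : ℝ) ≤
        2 * (1 + ρ) * (1 + |u - κ / r|) ^ (14 / 5 + a) := by
  have U := (h.one_le j).1.trans (h.one_le j).2
  have e := W0_le h (κ := κ) a0 j u r
  generalize u - κ / r = τ at *
  have p : 0 < 1 + |τ| := by positivity
  have m := le_max_right τ 0
  refine ⟨e.trans (mul_le_of_le_one_right zero_le_two
    (Real.rpow_le_one_of_one_le_of_nonpos (by linarith) a0)), ?_⟩
  rw [add_comm _ a, Real.rpow_add p, ← mul_assoc]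
  refine mul_le_mul_of_nonneg_right (e.trans ?_) (by positivity)
  have b : (1 + |τ|) / (1 + ρ) ≤ C.U0 j + max τ 0 := by
    rw [div_le_iff₀ (by linarith)]
    have : |τ| ≤ ρ + max τ 0 := abs_le.2 ⟨by linarith, by linarith [le_max_left τ 0]⟩
    nlinarith [mul_nonneg m ρ0, mul_le_mul_of_nonneg_right U ρ0]
  have d := Real.rpow_le_rpow_of_nonpos (by positivity) b a0
  rw [Real.div_rpow p.le (by linarith), div_eq_mul_inv, ← Real.rpow_neg (by linarith)] at d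
  have f : (1 + ρ) ^ (-a) ≤ 1 + ρ := (Real.rpow_le_rpow_of_exponent_le (by linarith)
    (show -a ≤ 1 by linarith)).trans_eq (Real.rpow_one _)
  have := mul_le_mul_of_nonneg_left f (Real.rpow_nonneg p.le a)
  linarith

end

open Vale.Agent.P354XD Vale.Agent.P354Z Vale.Agent.P354YK Vale.Agent.P354EF

variable {Φ : Fm} (h : Φ.Ok)

theorem S_ap (f : Φ.A) (j : Φ.J) : h.ch.S f j = eu _ (f j) :=
  congrArg₂ (· + ·) (Fm.H_ap f j) (Fm.B_ap f j)

theorem S_fn (φ : Fam Φ.J) (s : SmF φ) : h.ch.S (h.ch.fn φ) = 0 := funext fun j => by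
  refine (S_ap h _ j).trans ?_
  have e := fun i k => fnO_d (M := Φ.M0) (h.co j) (s j) i k
  rw [eu_ap, Hp.H_ap, Hp.B_ap]
  change _ * (hp _).d 2 (fnO _ _ _) + _ * (hp _).d 3 (fnO _ _ _) +
    (_ * (hp _).d 4 (fnO _ _ _) + _ * (hp _).d 5 (fnO _ _ _)) = 0
  rw [e 2 (by decide), e 3 (by decide), e 4 (by decide), e 5 (by decide)]
  simp

theorem S_fc (b : ∀ j, Base (Φ.E j).tau) {θ : ℝ} {Bx} {φ : ℝ → ℝ} (s : ContDiff ℝ ∞ φ) :
    h.ch.S ((h.tm θ Bx).fc φ) = 0 := funext fun j => by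
  refine (S_ap h _ j).trans ?_
  change (hp _).H (P354YL.cmp φ _) + (hp _).B (P354YL.cmp φ _) = 0
  rw [ch_H (h.co j).op φ _ (At.of s _) (b j).re, ch_B (h.co j).op φ _ (At.of s _) (b j).re,
    (b j).H, (base_eu (h.co j) (b j)).1]
  simp

/-- The integral over the shell of an invariant function. -/
theorem shl : ∃ C > 0, ∀ (Φ : Fm) (h : Φ.Ok) (j : Φ.J) (f : Φ.A), f ∈ (h.ch.B j).K →
    h.ch.S f = 0 → (∀ x : h.ch.Pt, x.1 = j → 0 ≤ h.ch.val x f) →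
    ∫⁻ x in {x | An x}, ENNReal.ofReal (rv (f j) x) ≤ ENNReal.ofReal (C * (h.ch.B j).J f) := by
  obtain ⟨C, C0, k⟩ := shell
  refine ⟨C, C0, fun Φ h j f m s p => ?_⟩
  have co := h.co j
  have e : eu _ (f j) = 0 := (S_ap h f j).symm.trans (congrFun s j)
  obtain ⟨S, s1, s2, s3, s4⟩ := (h.mem_K j f).1 m
  have z : ∀ x ∈ (Φ.E j).O2, P354BO.χ x.2.2 ≠ 0 → x ∉ S → fv (f j) x = 0 := fun x a b c => by
    have := s4 x c
    rw [fv_mul, fv_den co.op a, mul_eq_zero, Complex.ofReal_eq_zero, pow_eq_zero_iff two_ne_zero,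
      ← nq_N] at this
    exact this.resolve_left b
  have m' := memK co.op s1 s2 z
  refine (k _ co (f j) m' e fun x => ?_).trans_eq ?_
  · by_cases a : x ∈ (Φ.E j).O2
    swap
    · simp [fv_out _ a]
    have n : 0 < nq x := by
      refine lt_of_le_of_ne (add_nonneg (Complex.normSq_nonneg _) (Complex.normSq_nonneg _))
        fun c => (co.pos x a).2 ?_
      have := (add_eq_zero_iff_of_nonneg (Complex.normSq_nonneg _) (Complex.normSq_nonneg _)).1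
        c.symm
      exact Prod.ext (Complex.normSq_eq_zero.1 this.1) (Complex.normSq_eq_zero.1 this.2)
    have q : 0 < (√(nq x))⁻¹ := by positivity
    have n1 : nq (sr (√(nq x))⁻¹ x) = 1 := by
      rw [nq_sr, inv_pow, Real.sq_sqrt n.le, inv_mul_cancel₀ n.ne']
    rw [← orb0 co e q]
    have a' := sr_mem co q.ne' a
    by_cases c : sr (√(nq x))⁻¹ x ∈ S
    · exact p (h.pk j _ ⟨a', ⟨by linarith, by linarith⟩, s3 c⟩) rfl
    · rw [z _ a' (by rw [P354BO.χ_one ((nq_N _).trans n1)]; exact one_ne_zero) c, Complex.zero_re]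
  · rw [BO_J co.op m', h.J_eq m]
    simp only [P354BO.χ, nq_N]

end Vale.Agent.P354FY
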