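import Vale.Agent.P354FY.Sl
import Vale.Agent.P354FY.Blk
import Vale.Agent.P354FS.Layb
import Vale.Agent.P354YK.Tm2
import Vale.Agent.P354YF.Fte4
import Vale.Agent.P354FX.Ins
import Vale.Agent.P354PA.Low
import Vale.Agent.P354FA.Bs
import Vale.Agent.P354FA.Nil

/-!
The far estimate for the words, and the extension to the outer radius.
-/

open scoped ENNReal
open MeasureTheory Set Finset

noncomputable section

namespace Vale.Agent.P354FY

open Vale.Agent.P354XG Vale.Agent.P354XD Vale.Agent.P354XI Vale.Agent.P354Z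
open Vale.Agent.P354CO Vale.Agent.P354CV Vale.Agent.P354YF
open Vale.Agent.P354XZ (Cut Rng)
open Vale.Agent.P354YL (Tb Cf Cw Ql Sd de W0 cf_ex vl_fc wtE)
open Vale.Agent.P354YK (Fm bend_one chi_one lay_ne)
open Vale.Agent.P354FA (Vw)
open Vale.Agent.P354FS (RAWN RAWL layb)
open ENNReal (ofReal)

theorem rawn : RAWN := fun _ h m n N ρ =>
  let ⟨c, c0, B, B0, k⟩ := raw_near h m n N ρ
  ⟨c, c0, B, B0, fun x d y a b e f g => k x d y a b e
    (fun i => (P354BO.q2_mono _ _ (Nat.le_add_right n 4) _).trans (f i)) g⟩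

theorem rawl : RAWL := fun _ h m _ N l =>
  let ⟨c, c0, B, B0, k⟩ := raw_lay h m N
  ⟨c, c0, B, B0, fun x e a b f => (k x e a b fun i =>
    (P354BO.q2_mono _ _ (Nat.le_add_right N 2) _).trans (f i)).mono h.is l le_rfl le_rfl⟩

/-- The states with the mass M and an inner radius. -/
structure Jx (M θ : ℝ) where
  c : Cs
  E : Est
  R0 : ℝ
  hM : c.M = M
  ok : c.Ok
  sh : E.Shape c
  eqs : E.Eqs c
  R1 : 4 * c.R1 ≤ R0
  M2 : 24 * M ^ 2 ≤ R0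
  th : 1 ≤ θ * R0

variable {M θ : ℝ}

def un (M θ : ℝ) : Fm := ⟨Jx M θ, M, Jx.c, Jx.E, Jx.R0, Jx.R0⟩
def pm (j : Jx M θ) : ℝ := 4 / j.c.cw

theorem Jx.big (j : Jx M θ) : j.c.R1 + 3 ≤ j.R0 ∧ 4 * M ≤ j.R0 ∧ 1 ≤ j.R0 := by
  have a := j.ok.R1
  have b := (ok_pos j.ok).1
  have c := j.R1
  rw [j.hM] at a b
  exact ⟨by linarith, by linarith, by linarith⟩

theorem un_ok (M θ : ℝ) : (un M θ).Ok :=
  ⟨Jx.hM, fun j => j.sh.co2, Jx.eqs, fun j => ⟨j.big.2.2, le_rfl⟩⟩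

theorem un_gd (h : 0 < θ ∧ θ ≤ 1) : (un M θ).Gd θ pm :=
  ⟨Jx.ok, Jx.sh, fun j => j.big.1, Jx.M2, h, Jx.th,
    fun j => (div_mul_cancel₀ 4 j.ok.cw.1.ne').ge⟩

abbrev KK (M θ : ℝ) : Cut (un_ok M θ).ch := (un_ok M θ).cut θ (fun _ _ => 1) pm fun _ => 0
abbrev VV (M θ : ℝ) := Vw (un M θ).nf (un M θ).nf0 (un_ok M θ).ch

theorem KK_is (h : 0 < θ ∧ θ ≤ 1) : (KK M θ).Is :=
  (un_ok M θ).cut_is h.1 h.2 (fun _ => le_rfl) fun j => bend_one j.big.2.2 j.big.2.2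
    ((one_le_div j.ok.cw.1).2 (j.ok.cw.2.trans (by norm_num)))

/-- The estimate in the family of all states. -/
theorem core (M θ : ℝ) (m L : ℕ) : ∃ c > 0, ∃ B ≥ 0, 0 < θ ∧ θ ≤ 1 → 11 ≤ m → m + 6 ≤ L →
    ∀ (j : Jx M θ) σ e φ ψ, σ ∈ j.E.Lv → 0 ≤ e → e * pm j + j.R0 ^ (-1 / 10 : ℝ) ≤ c →
      (∀ x ∈ ((un_ok M θ).TT θ).Y j σ,
        Tb (un_ok M θ).ch (un M θ).nf (un M θ).nf0 (VV M θ) (od m L) e x) → Cf σ φ →
      Cw (un_ok M θ).ch (4 * M ^ 2) j ψ →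
      (KK M θ).Cau (un M θ).nf j (((un_ok M θ).TT θ).fc φ * (un_ok M θ).ch.fn ψ) ∧
        (KK M θ).E j (((un_ok M θ).TT θ).fc φ * (un_ok M θ).ch.fn ψ)
          (dq (KK M θ) (VV M θ) (L + 10)) ≤
        B * (KK M θ).L j (((un_ok M θ).TT θ).fc φ * (un_ok M θ).ch.fn ψ)
          (Ql (un_ok M θ).ch (un M θ).nf (un M θ).nf0 (KK M θ) (VV M θ) 0 0 (L + 10)) := by
  by_cases a : (0 < θ ∧ θ ≤ 1) ∧ 11 ≤ m ∧ m + 6 ≤ L ∧ Nonempty (Jx M θ)
  swap
  · exact ⟨1, one_pos, 0, le_rfl, fun a1 a2 a3 j => absurd ⟨a1, a2, a3, ⟨j⟩⟩ a⟩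
  obtain ⟨a1, a2, a3, ⟨j⟩⟩ := a
  have h := un_ok M θ
  have M0 : 0 < M := j.hM ▸ (ok_pos j.ok).1
  obtain ⟨c, c0, B, B0, k⟩ := blk (K := KK M θ) (Vw := VV M θ) (T := h.TT θ)
    ⟨h.ga, KK_is a1, P354FA.bs h.ga j, P354FA.Vw_nil .., fun w i => by
      rw [VV, Vw, D_sub, P354FA.S_Jh h.is h.nf_is, P354FA.S_Jh h.is h.ga.rf.is, sub_zero]⟩
    (h.tm_is (un_gd a1)) (κ := 4 * M ^ 2) (by positivity) h.mc0 (o := od m L)
    ⟨le_rfl, show m + 6 + 5 ≤ 2 * m by omega, a3, le_rfl⟩ (s := L + 10)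
    ⟨.inl ⟨⟨le_rfl, by norm_num⟩, Nat.zero_le _⟩, Nat.le_add_right m 6, show m ≤ L by omega,
      Nat.zero_le _, show 0 + 0 + (L + 10) ≤ L + m by omega⟩
  exact ⟨c, c0, B, B0, fun _ _ _ => k⟩

theorem ord_R (f : ℝ → ℝ → ℕ → ℕ → ℝ) :
    Ord fun m L R c => f c.M c.del m L ≤ R ∧ 16 * c.R1 ≤ R := fun z a =>
  ⟨0, fun m _ => ⟨0, fun _ _ => ⟨0, fun L _ => ⟨max (f z.M a.del m L) (16 * z.R1), fun _ hR =>
    ⟨0, 0, fun _ _ _ _ _ _ _ => ⟨le_of_max_le_left hR, le_of_max_le_right hR⟩⟩⟩⟩⟩⟩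

theorem rad (c : ℝ) (M θ : ℝ) : ∃ f, ∀ R, 0 < c → 0 < θ → f ≤ R →
    (R / 4) ^ (-1 / 10 : ℝ) ≤ c / 2 ∧ 24 * M ^ 2 ≤ R / 4 ∧ 1 ≤ θ * (R / 4) := by
  refine ⟨4 * ((c / 2) ^ (-10 : ℝ) + 24 * M ^ 2 + 1 / θ), fun R c0 θ0 e => ?_⟩
  have p1 : 0 < (c / 2) ^ (-10 : ℝ) := by positivity
  have p2 : 0 ≤ 24 * M ^ 2 := by positivity
  have p3 : 0 < 1 / θ := by positivity
  refine ⟨(Real.rpow_le_rpow_of_nonpos p1 (by linarith) (by norm_num)).trans_eq ?_, by linarith,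
    (div_le_iff₀' θ0).1 (by linarith)⟩
  rw [← Real.rpow_mul (by positivity)]
  norm_num

theorem fare : FARE := fun Q hQ => by
  have a0 : Q - 14 / 5 ≤ 0 := by rcases hQ with e | e <;> rw [e] <;> norm_num
  have a1 : -1 / 2 ≤ Q - 14 / 5 := by rcases hQ with e | e <;> rw [e] <;> norm_num
  choose c0 p0 B B0 H using core
  choose f hf using rad
  obtain ⟨C1, q1, h1⟩ := shl
  refine ((ord_R fun M θ m L => f (c0 M θ m L) M θ).and (ord_big 12)).mono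
    fun m L R c o ⟨⟨r1, r2⟩, b1, b2, b3, b4, b5, b6⟩ => ?_
  push_cast at b4 b6
  have M0 := (ok_pos o).1
  have R1 := o.R1
  have R2 := o.R2
  have Rs := o.Rs
  have t1 := o.t1
  have cw := o.cw.1
  have th : 0 < c.del ∧ c.del ≤ 1 := ⟨o.del.1, o.del.2.trans (by norm_num)⟩
  obtain ⟨f1, f2, f3⟩ := hf _ c.M c.del R (p0 ..) th.1 r1
  have h := un_ok c.M c.del
  have k := KK_is (M := c.M) th
  have i := h.tm_is (p := fun _ _ => 1) (ep := fun _ => 0) (un_gd th)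
  obtain ⟨δ, δ0, C2, q2, h2⟩ := layb h k (fun j => j.big.2.1) P354FX.tubeb P354PA.low2 rawn rawl 0
    (L + 10) c.t1 (R / 4) (R / 4) (4 / c.cw) R
  have pc := p0 c.M c.del m L
  have pB := B0 c.M c.del m L
  have R0 : 0 < R := by linarith
  have m0 : 0 < min δ (c0 c.M c.del m L / 2 / ((R / 4) ^ 3 * (4 / c.cw))) := by positivity
  refine ⟨_, m0, 64 * (2 ^ (L + 10 + 2)) ^ 2 * (C1 * (B c.M c.del m L * (C2 * (2 * (1 + (R + 1)))))),
    by positivity, fun E ε s T D a sl gi s' hs => ?_⟩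
  generalize hd : min δ (c0 c.M c.del m L / 2 / ((R / 4) ^ 3 * (4 / c.cw))) = d at a m0
  have d1 : d ≤ δ := hd ▸ min_le_left ..
  have d2 := (le_div_iff₀ (by positivity)).1 (hd.symm.trans_le (min_le_right ..))
  have sh := a.bo.is.shape
  let j : Jx c.M c.del := ⟨c, E, R / 4, rfl, o, sh, a.bo.is.eqs, by linarith, f2, f3⟩
  obtain ⟨φ, cf, φ1⟩ := cf_ex hs
  obtain ⟨χ, cχ, χ1⟩ := cf_ex (show T + 1 < T + 2 by linarith)
  have κ0 : 0 ≤ 4 * c.M ^ 2 := by positivity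
  have w := cw_Wc h.is κ0 a0 cχ j
  obtain ⟨ca, e1⟩ := H c.M c.del m L th (by omega) (by omega) j s (d * (R / 4) ^ 3) φ _ a.lv
    (by positivity) (by
      change d * (R / 4) ^ 3 * (4 / c.cw) + (R / 4) ^ (-1 / 10 : ℝ) ≤ _
      linarith) (fun x ⟨e, l⟩ => by
      have := a.tb _ h x (congrArg Jx.c e) (congrArg Jx.E e) (by
        have : (un c.M c.del).R0 x.1 = R / 4 := congrArg Jx.R0 e
        linarith) l
      rwa [show (un c.M c.del).U0 x.1 = R / 4 from congrArg Jx.R0 e] at this) cf w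
  have tu : ∀ x : h.ch.Pt, h.ch.uu x - 4 * c.M ^ 2 / h.ch.rr x = (h.pt x).1 := fun x => by
    rw [h.uu_eq, h.rr_eq]
    exact add_sub_cancel_right _ _
  have kr : ∀ x : h.ch.Pt, 4 * c.M ^ 2 ≤ h.ch.rr x := fun x => by
    have : 24 * c.M ^ 2 ≤ h.ch.rr x := (Jx.M2 x.1).trans (h.is.dom x).1
    linarith
  have vp : ∀ (x : h.ch.Pt) g, h.ch.val x ((h.TT c.del).fc φ *
      h.ch.fn (Wc h.ch (4 * c.M ^ 2) (Q - 14 / 5) χ) * g) = φ ((h.TT c.del).tv x) *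
      (h.ch.at' (W0 h.ch (4 * c.M ^ 2) (Q - 14 / 5)) x * χ (h.pt x).1 * h.ch.val x g) :=
    fun x g => by
    rw [mul_assoc, vl_mul h.is (i.fc_c φ cf.1), vl_fc i cf.1, vl_fn_mul h.is w.1, ← tu,
      ← sub_zero (h.ch.uu x - _)]
    rfl
  have e2 := h2 j o rfl rfl le_rfl le_rfl (show 0 + 4 ≤ c.N0 by omega)
    (show 0 + (L + 10) ≤ c.K by omega) (show 4 * c.R1 ≤ _ by linarith) (by linarith)
    (show R + 1 ≤ c.Rs by linarith) (fun x e l => by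
      have r := h.rr_pos x
      have u : (un c.M c.del).R0 x.1 = R / 4 := congrArg Jx.R0 e
      exact (lay_ne th.1 (one_pos.trans_le (h.one x.1).1) r l).2.2.imp
        (fun v => v.le.trans_eq (congrArg _ u)) fun v => show _ ≤ c.del * _ by linarith [mul_pos th.1 r])
    L ε Q (2 * (1 + (R + 1))) D s (T + 2) 0 _ (by omega) a.bo (a.le.trans d1) (a.D1.trans d1)
    (by linarith) (by linarith) (by positivity) le_rfl gi
    (sl.mono le_rfl fun _ _ => (Ys_le ..).trans (Yl_mono (by omega) le_rfl le_rfl le_rfl))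
    ca.re ca.cpt.2.1 fun x e => by
      have v := vp x 1
      rw [mul_one, show h.ch.val x 1 = 1 by simp [P354XZ.Ch.val, Ibp.val], mul_one] at v
      have w0 : 0 ≤ h.ch.at' (W0 h.ch (4 * c.M ^ 2) (Q - 14 / 5)) x :=
        ((P354YL.cw_W0 h.is κ0 a0 x.1).2 _ (h.is.dom x)).1
      have v1 : h.ch.val x ((h.TT c.del).fc φ * h.ch.fn (Wc h.ch (4 * c.M ^ 2) (Q - 14 / 5) χ)) ≤
          h.ch.at' (W0 h.ch (4 * c.M ^ 2) (Q - 14 / 5)) x := by
        rw [v]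
        exact (mul_le_of_le_one_left (mul_nonneg w0 (cχ.2.1 _).1.1) (cf.2.1 _).1.2).trans
          (mul_le_of_le_one_right w0 (cχ.2.1 _).1.2)
      refine ⟨(ca.pos x e).1, (v1.trans (wt_up h.is a0 (by linarith) x.1 (neg_abs_le _)
        (abs_nonneg _)).1).trans (by linarith), fun r => ⟨?_, fun z => ?_⟩⟩
      · have := (wt_up h.is (κ := 4 * c.M ^ 2) (ρ := R + 1) a0 (by linarith) x.1 (by
          have : 0 ≤ h.ch.uu x + h.ch.rr x := (h.is.dom x).2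
          linarith [(div_le_one (h.rr_pos x)).2 (kr x)]) (by linarith)).2
        rw [tu, add_sub_cancel] at this
        exact (mul_le_mul_of_nonneg_right v1 (by positivity)).trans this
      · rw [v] at z
        exact ⟨(congrArg (fun i : Jx c.M c.del => rv i.E.tau (h.pt x)) e).symm.trans_le
          (not_le.1 (mt (cf.2.2 _) (left_ne_zero_of_mul z))).le,
          (not_le.1 (mt (cχ.2.2 _) (right_ne_zero_of_mul (right_ne_zero_of_mul z)))).le⟩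
  have we := wtE h.is k ca
  have dp : ∀ x, 0 ≤ h.ch.val x (dq (KK c.M c.del) (VV c.M c.del) (L + 10)) := fun x =>
    P354YL.dWl_pos h.is (P354YS.ps_Dw h.is (P354YL.ps_p k) 0) ..
  have e3 := (h1 _ h j _ (Ideal.mul_mem_right (dq (KK c.M c.del) (VV c.M c.del) (L + 10)) _ we.K)
    (by rw [D_mul, D_mul, D_mul, S_fc h (fun j => j.sh.b2) cf.1, S_fn h _ w.1, S_fn h _ k.sm.1,
      S_dq h.is k (S_fn h) fun w i => by
        rw [VV, Vw, D_sub, P354FA.S_Jh h.is h.nf_is, P354FA.S_Jh h.is h.ga.rf.is, sub_zero]]; simp)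
    fun x e => by
      rw [mul_assoc _ (h.ch.fn _), vl_mul h.is ca.re, vl_fn_mul h.is k.sm.1]
      exact mul_nonneg (ca.pos x e).1 (mul_nonneg (P354YK.chi_mem ..).1 (dp x))).trans (ENNReal.ofReal_le_ofReal
      (mul_le_mul_of_nonneg_left (e1.trans (mul_le_mul_of_nonneg_left e2 pB)) q1.le))
  refine le_trans (le_of_sub (((Complex.measurable_re.comp (P354YL.fv_meas sh.co2.op _)
    ).ennreal_ofReal).const_mul (ofReal (64 * (2 ^ (L + 10 + 2)) ^ 2))) fun x hx => ⟨hx.2.1, ?_⟩)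
    ((lintegral_const_mul' _ _ ENNReal.ofReal_ne_top).trans_le
      ((mul_le_mul_right e3 _).trans_eq ?_))
  swap
  · rw [← ENNReal.ofReal_mul (by positivity)]
    exact congrArg _ (by ring)
  obtain ⟨x1, x2, x3, x4, x5, x6⟩ := hx
  have u0 : x.1 ≤ uu c.M x := le_add_of_nonneg_right (div_nonneg κ0 (by linarith))
  let y := h.pk j x ⟨x1, x2, show R / 4 ≤ _ by linarith, show 0 ≤ uu c.M x + _ by linarith⟩
  have ey : h.pt y = x := rfl
  have er : h.ch.rr y = x.2.1 := h.rr_eq y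
  have eu : h.ch.uu y = uu c.M x := h.uu_eq y
  have ec : h.ch.at' (KK c.M c.del).chi y = 1 :=
    chi_one th.1 (show 0 < R / 4 by positivity) (show 3 * (R / 4) ≤ _ by linarith) (by
      have := mul_le_of_le_one_left (h.rr_pos y).le th.2
      linarith [h.rr_pos y])
  rw [← ENNReal.ofReal_mul (by positivity)]
  refine ENNReal.ofReal_le_ofReal (le_of_le_of_eq ?_ (congrArg _ (h.val_eq y _)))
  rw [mul_assoc _ (h.ch.fn _), vp, φ1 ((h.TT c.del).tv y) x3, χ1 (h.pt y).1 x6,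
    vl_fn_mul h.is k.sm.1, ec, one_mul, mul_one, one_mul, val_dq h.is k, vq]
  simp only [mul_sum]
  refine sum_le_sum fun n hn => sum_le_sum fun v _ => sum_le_sum fun l _ => ?_
  have z1 := wt_lo h.is k κ0 a0 a1 (kr y) (show 0 ≤ x.1 by linarith) (u0.trans_eq eu.symm) l
  have z2 := pow_le_pow_left₀ (norm_nonneg _) (dv_le h (w := List.ofFn v) (n := L + 10)
    (by rw [List.length_ofFn]; exact Nat.lt_succ_iff.1 (mem_range.1 hn)) l y).1 2
  rw [add_sub_cancel] at z1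
  exact (mul_le_mul z1 z2 (sq_nonneg _) ((Real.rpow_nonneg (by linarith) _).trans z1)).trans_eq
    (by ring)

/-- The extension to the outer radius. -/
theorem fxs : FXS TabE := fxs_of P354FX.reve fare

end Vale.Agent.P354FY
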