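import Vale.Agent.P354FY.Pe
import Vale.Agent.P354FS.Lay
import Vale.Agent.P354YL.Ft
import Vale.Agent.P354YL.Par

/-!
The extension to the outer radius from the far estimate for the words.
-/

open scoped ENNReal
open MeasureTheory Set Finset

noncomputable section

namespace Vale.Agent.P354FY

open Vale.Agent.P354XG Vale.Agent.P354XD Vale.Agent.P354XR Vale.Agent.P354XI Vale.Agent.P354Z
open Vale.Agent.P354CO Vale.Agent.P354CV
open Vale.Agent.P354FX (dv Pe REVE)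
open Vale.Agent.P354FA (Lt)
open Vale.Agent.P354YH (wt wt_pos wt_zero)
open ENNReal (ofReal)

/-- The sum of the squares of the words, and the far part of the region. -/
def vq (c : Cs) (E : Est) (n : ℕ) (x : E6) : ℝ :=
  ∑ s ∈ range (n + 1), ∑ j : Fin s → Lt, ∑ k : Fin 5, dv c E x (List.ofFn j) k ^ 2
def Fz (c : Cs) (E : Est) (s R T : ℝ) : Set E6 :=
  {x | x ∈ E.O2 ∧ An x ∧ rv E.tau x ≤ s ∧ R ≤ x.2.1 ∧ c.t1 ≤ x.1 ∧ x.1 ≤ T}

/-- The far estimate for the words. -/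
def FARE : Prop := ∀ Q, Q = 5 / 2 ∨ Q = 14 / 5 → Ord fun m L R c => ∃ δ > 0, ∃ C ≥ 0,
  ∀ E ε s T D, At c E TabE m L δ ε s T D → Sl c Q (Yl c E (L + 12) R) (T + 2) D →
    Gi c E Q R (T + 2) D → ∀ s' < s, ∫⁻ x in Fz c E s' R (T + 1),
      ofReal ((1 + x.1) ^ Q * vq c E (L + 10) x) ≤ ofReal (C * D)

variable {c : Cs} {E : Est}

theorem vq_nn (n : ℕ) (x : E6) : 0 ≤ vq c E n x :=
  sum_nonneg fun _ _ => sum_nonneg fun _ _ => sum_nonneg fun _ _ => sq_nonneg _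

theorem dv_vq {n : ℕ} (x : E6) {w : List Lt} {k : ℕ} (hw : w.length ≤ n) (hk : k ≤ 4) :
    dv c E x w k ≤ √(vq c E n x) := by
  have a := single_le_sum (f := fun k : Fin 5 => dv c E x w k ^ 2) (fun _ _ => sq_nonneg _)
    (mem_univ ⟨k, by omega⟩)
  have b := single_le_sum (f := fun j : Fin w.length → Lt =>
    ∑ k : Fin 5, dv c E x (List.ofFn j) k ^ 2) (fun _ _ => sum_nonneg fun _ _ => sq_nonneg _)
    (mem_univ w.get)
  have d := single_le_sum (f := fun s => ∑ j : Fin s → Lt,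
    ∑ k : Fin 5, dv c E x (List.ofFn j) k ^ 2) (fun _ _ => sum_nonneg fun _ _ =>
      sum_nonneg fun _ _ => sq_nonneg _) (mem_range.2 (Nat.lt_succ_of_le hw))
  rw [List.ofFn_get] at b
  exact Real.le_sqrt_of_sq_le (a.trans (b.trans d))

/-- The closed slabs overlap at most twice. -/
theorem slabs (μ : Measure E6) (g : E6 → ℝ≥0∞) (a : ℝ) (k : ℕ) :
    ∑ j ∈ range k, ∫⁻ x in {x | a + j ≤ x.1 ∧ x.1 ≤ a + j + 1}, g x ∂μ ≤ 2 * ∫⁻ x, g x ∂μ := by
  let I : ℝ → ℕ → Set E6 := fun a j => Prod.fst ⁻¹' Ico (a + j) (a + j + 1)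
  have h : ∀ a, ∑ j ∈ range k, ∫⁻ x in I a j, g x ∂μ ≤ ∫⁻ x, g x ∂μ := fun a => by
    rw [← lintegral_biUnion_finset (fun i _ j _ e => ?_)
      fun j _ => measurable_fst measurableSet_Ico]
    · exact setLIntegral_le_lintegral _ _
    refine Set.disjoint_left.2 fun x u v => e (le_antisymm ?_ ?_) <;>
      refine Nat.lt_succ_iff.1 (Nat.cast_lt (α := ℝ).1 ?_) <;> push_cast <;>
      linarith [u.1, u.2, v.1, v.2]
  rw [two_mul]
  refine le_trans ?_ (add_le_add (h a) (h (a + 1)))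
  rw [← sum_add_distrib]
  refine sum_le_sum fun j _ => (lintegral_mono_set fun x hx => ?_).trans (lintegral_union_le _ _ _)
  exact (lt_or_ge x.1 (a + j + 1)).imp (fun e => ⟨hx.1, e⟩)
    fun e => ⟨by linarith, by linarith [hx.2]⟩

theorem slab_ms (a b : ℝ) : MeasurableSet {x : E6 | a ≤ x.1 ∧ x.1 ≤ b} :=
  measurable_fst (measurableSet_Icc (a := a) (b := b))

theorem le_of_sub {S S' : Set E6} {f g : E6 → ℝ≥0∞} (hg : Measurable g)
    (h : ∀ x ∈ S, x ∈ S' ∧ f x ≤ g x) : ∫⁻ x in S, f x ≤ ∫⁻ x in S', g x :=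
  (setLIntegral_mono hg fun x hx => (h x hx).2).trans (lintegral_mono_set fun x hx => (h x hx).1)

theorem vq_ms (hO : IsOpen E.O2) (n : ℕ) : Measurable (vq c E n) :=
  Finset.measurable_sum _ fun _ _ => Finset.measurable_sum _ fun _ _ =>
    Finset.measurable_sum _ fun _ _ => (P354YL.fv_meas hO _).norm.pow_const 2

theorem tab_mono {m L : ℕ} {s e e' : ℝ} (e0 : 0 ≤ e) (h : e ≤ e') (t : TabE c E m L s e) :
    TabE c E m L s e' := fun Φ p x e1 e2 e3 e4 =>
  have u := pow_nonneg (zero_le_one.trans ((p.one x.1).1.trans (p.one x.1).2)) 3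
  (t Φ p x e1 e2 e3 e4).mono p.is (mul_nonneg e0 u) (mul_le_mul_of_nonneg_right h u)

theorem e0_le (o : c.Ok) (z : 0 ≤ E.e0) {Q R T D : ℝ} (gi : Gi c E Q R T D) : E.e0 ^ 2 ≤ D := by
  have : E.e0 ≤ c.B * (E.e0 + |E.M - c.M| + |E.a - c.a|) := le_trans
    (by linarith [abs_nonneg (E.M - c.M), abs_nonneg (E.a - c.a)])
    (le_mul_of_one_le_left (by positivity) o.B)
  exact (pow_le_pow_left₀ z this 2).trans gi.1

/-- The first slab. -/
theorem slab0 (o : c.Ok) (i : E.Is c) {n : ℕ} (hn : n ≤ c.K + 2) {D : ℝ} (e : E.e0 ^ 2 ≤ D)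
    {Z : Set E6} (hZ : ∀ x ∈ Z, x.1 ≤ c.t1 + 1) : Yz E (E.eta n) Z ≤
      ofReal (c.B + c.t1 + 1) * (ofReal (c.Rs + 1) * P354FS.V0) * ofReal D := by
  rw [← P354FS.bx_vol (-c.B) _ 0, mul_comm, ← setLIntegral_const]
  refine le_of_sub measurable_const fun x ⟨m, a, z⟩ => ?_
  obtain ⟨r1, r2, r3⟩ := i.shape.rad1 x m
  have t := hZ x z
  exact ⟨⟨⟨r3, by linarith⟩, ⟨(ok_pos o).2.le.trans r1, by linarith⟩, P354FS.an_ball a⟩,
    ENNReal.ofReal_le_ofReal ((eta_mono hn x).trans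
      ((i.near.ini x m a (by linarith [o.B])).trans e))⟩

theorem fxs_of (hR : REVE) (hF : FARE) : FXS TabE := fun Q hQ => by
  have Q0 : 0 ≤ Q := by rcases hQ with e | e <;> rw [e] <;> norm_num
  refine ((hF Q hQ).and (ord_big 12)).mono fun m L R c o ⟨⟨δ, δ0, C, C0, h⟩, b⟩ => ?_
  obtain ⟨b1, b2, b3, b4, b5, b6⟩ := b
  push_cast at b4 b6
  have M0 := (ok_pos o).1
  have R1 := o.R1
  have R2 := o.R2
  have Rs := o.Rs
  have t1 := o.t1
  have B1 := o.B
  obtain ⟨δ1, p1, C1, q1, h1⟩ := hR c.M c.Rs (L + 10)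
  obtain ⟨δ2, p2, h2⟩ := pe_of o (ρ := c.Rs) (by linarith) p1
  obtain ⟨C3, q3, h3⟩ := half o L
  let V := ofReal (c.B + c.t1 + 1) * (ofReal (c.Rs + 1) * P354FS.V0)
  have V1 : V ≠ ∞ := ENNReal.mul_ne_top ENNReal.ofReal_ne_top
    (ENNReal.mul_ne_top ENNReal.ofReal_ne_top P354FS.V0_ne)
  have m0 : 0 < min δ (min δ2 (δ1 / (C3 + 1))) := by positivity
  refine ⟨_, m0, 1 + V.toReal + 2 * C1 * C, by positivity, fun E ε s T D a sl gi s' hs k => ?_⟩
  generalize hd : min δ (min δ2 (δ1 / (C3 + 1))) = d at a m0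
  have d1 : d ≤ δ := hd ▸ min_le_left ..
  have d2 : d ≤ δ2 := hd ▸ (min_le_right ..).trans (min_le_left ..)
  have d3 : d * (C3 + 1) ≤ δ1 := (le_div_iff₀ (by positivity)).1
    (hd ▸ (min_le_right ..).trans (min_le_right ..))
  have sh := a.bo.is.shape
  have D0 : 0 ≤ D := (sq_nonneg _).trans gi.1
  have F := h E ε s T D ⟨a.bo, a.le.trans d1, a.lv, a.top, tab_mono m0.le d1 a.tb, a.D0,
    a.D1.trans d1⟩ sl gi s' hs
  let g : E6 → ℝ≥0∞ := fun x => ofReal ((1 + x.1) ^ Q * vq c E (L + 10) x)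
  have gm : Measurable g := (((measurable_fst.const_add 1).pow_const Q).mul
    (vq_ms sh.co2.op _)).ennreal_ofReal
  let μ := volume.restrict (Fz c E s' R (T + 1))
  have key : ∀ j : ℕ, ofReal (wt Q j) * Ys c E (L + 10) s' (c.Rs - 1) (lo c j)
      (min (c.t1 + j + 1) (T + 1)) ≤ ofReal (wt Q j) * Yl c E (L + 12) R (lo c j)
        (min (c.t1 + j + 1) (T + 2)) + (if j = 0 then V * ofReal D else 0) +
        ofReal C1 * ∫⁻ x in {x | c.t1 + j ≤ x.1 ∧ x.1 ≤ c.t1 + j + 1}, g x ∂μ := fun j => by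
    split_ifs with z
    · subst z
      rw [wt_zero, ENNReal.ofReal_one, one_mul]
      exact le_add_right (le_add_left (slab0 o a.bo.is (by omega) (e0_le o a.bo.is.near.e0 gi)
        fun x hx => by simpa using hx.2.2.2.2.trans (min_le_left ..)))
    rw [add_zero]
    refine (mul_le_mul_right (Yz_union _ (Z1 := Zl c R (lo c j) (min (c.t1 + j + 1) (T + 2)))
      (Z2 := Zs c E s' (c.Rs - 1) (lo c j) (min (c.t1 + j + 1) (T + 1)) ∩ {x | R ≤ x.2.1})
      fun x _ _ z => (le_total x.2.1 R).imp (fun e => ⟨z.1, e, z.2.2.2.1,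
        z.2.2.2.2.trans (min_le_min_left _ (by linarith))⟩) fun e => ⟨z, e⟩) _).trans ?_
    rw [mul_add]
    refine add_le_add (mul_le_mul_right (Yz_le E (eta_mono (by omega)) _) _) ?_
    rw [Measure.restrict_restrict (slab_ms ..), Yz,
      ← lintegral_const_mul' _ _ ENNReal.ofReal_ne_top,
      ← lintegral_const_mul' _ _ ENNReal.ofReal_ne_top]
    refine le_of_sub (gm.const_mul _) fun x ⟨m1, an, ⟨_, z2, z3, z4, z5⟩, (z6 : R ≤ x.2.1)⟩ => ?_
    rw [lo, if_neg z] at z4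
    have j0 : (0 : ℝ) ≤ j := j.cast_nonneg
    have fa : Est.Fa c x := ⟨by linarith, add_nonneg (add_nonneg (by linarith)
      (div_nonneg (by positivity) (by linarith))) (by linarith)⟩
    obtain ⟨m2, st⟩ := sh.up x m1 fa
    refine ⟨⟨⟨z4, z5.trans (min_le_left ..)⟩, m2, an, st ▸ z2, z6, by linarith,
      z5.trans (min_le_right ..)⟩, ?_⟩
    have e := h1 c E x rfl (h2 E L ε a.bo (by omega) (a.le.trans d2) x m1 an fa (by linarith))
      (fun w k hw hk => (h3 E m s d sh a.bo.is.eqs m0.le a.tb x m2 an fa (by linarith)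
        ((st ▸ z2).trans_lt hs) w k (by omega) hk).trans (by linarith)) _
      fun w k hw hk => dv_vq x hw hk
    rw [Real.sq_sqrt (vq_nn ..)] at e
    have w : wt Q j ≤ (1 + x.1) ^ Q := Real.rpow_le_rpow (by positivity) (by linarith) Q0
    rw [← ENNReal.ofReal_mul (wt_pos ..).le, ← ENNReal.ofReal_mul q1, mul_left_comm]
    exact ENNReal.ofReal_le_ofReal (mul_le_mul w e (P354CO.eta_nn ..) ((wt_pos ..).le.trans w))
  refine (sum_le_sum fun j _ => key j).trans ?_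
  rw [sum_add_distrib, sum_add_distrib, sum_ite_eq', if_pos (by simp), ← mul_sum, add_mul, add_mul,
    one_mul, ENNReal.ofReal_add (by positivity) (by positivity),
    ENNReal.ofReal_add D0 (by positivity), ENNReal.ofReal_mul ENNReal.toReal_nonneg,
    ENNReal.ofReal_toReal V1]
  refine add_le_add (add_le_add (sl k) le_rfl) ((mul_le_mul_right ((slabs μ g _ _).trans
    (mul_le_mul_right F 2)) _).trans_eq ?_)
  rw [mul_comm 2 C1, mul_assoc, mul_assoc, ENNReal.ofReal_mul q1, ENNReal.ofReal_mul zero_le_two,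
    ENNReal.ofReal_ofNat]

end Vale.Agent.P354FY
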